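import Vale.Agent.P153.R2.FinB.Defs
import Vale.Agent.P153.R2.APPX.Main

/-!
P153: the final statements for polygons whose marked boundary curves converge (without the
condition on the compact subsets, which follows from it).
-/

set_option autoImplicit false

namespace Vale.Agent.P153.R2.FinB

open Filter Topology Set MeasureTheory

variable {Φ : (ℝ × ℝ) ≃ₜ (ℝ × ℝ)} {δ : ℕ → ℝ} {N k : ℕ → ℕ} {p : ∀ n, ZMod (N n) → ℤ × ℤ}
  {S : ℕ → Finset Tri}

theorem approx_to (h : Approx Φ δ N k p S) : Final.Approx Φ δ N k p S := APPX.approx_of h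

theorem fieldLimit_of {κ : ℝ} (h : Final.FieldLimit κ) : FieldLimit κ := by
  intro Φ
  obtain ⟨u, hu, h1, h2⟩ := h Φ
  exact ⟨u, hu, h1, fun δ N k p S hA => h2 δ N k p S (approx_to hA)⟩

theorem trace_of {W : ℝ → ℝ} {γ : ℝ → ℂ} (h : Final.IsSimpleTrace W γ) : IsSimpleTrace W γ :=
  ⟨h.cont, h.inj, h.start, h.im_pos, h.domain_eq⟩

theorem sle_of {Ω : Type*} [MeasurableSpace Ω] {κ : ℝ} {P : Measure Ω} {γ : Ω → ℝ → ℂ}
    (h : Final.IsSLETrace κ P γ) : IsSLETrace κ P γ := by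
  obtain ⟨B, hB, h⟩ := h
  exact ⟨B, hB, h.mono fun ω hω => trace_of hω⟩

theorem curveLimit_of (h : Final.CurveLimit) : CurveLimit := by
  obtain ⟨Ω, mΩ, P, hP, γ, hγ, h⟩ := h
  refine ⟨Ω, mΩ, P, hP, γ, sle_of hγ, fun Φ => ⟨(h Φ).1, fun ψ hψ => ?_⟩⟩
  obtain ⟨G, h1, h2, h3⟩ := (h Φ).2 ψ hψ
  exact ⟨G, h1, h2, fun δ N k p S hA => h3 δ N k p S (approx_to hA)⟩

end Vale.Agent.P153.R2.FinB
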