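import Vale.Agent.P153.R2.Final.Both
import Vale.Agent.P153.R2.FinB.Conv

/-!
P153, two-arc boundary values: the field theorem and the curve theorem.
-/

set_option autoImplicit false

namespace Vale.Agent.P153.R2.FinB

/-- **The field theorem and the curve theorem.** -/
theorem both_lim : ∃ κ : ℝ, 0 < κ ∧ FieldLimit κ ∧ CurveLimit := by
  obtain ⟨κ, hκ, h1, h2⟩ := Final.both_lim
  exact ⟨κ, hκ, fieldLimit_of h1, curveLimit_of h2⟩

end Vale.Agent.P153.R2.FinB
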