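import Mathlib

/-!
Uniform odd heights on the triangular lattice with the boundary values `1` and `-1` on two arcs:
definitions for the final statements.
-/

namespace Vale.Agent.P153.R2.FinB

open MeasureTheory ProbabilityTheory Filter Topology Set

/-! ### The lattice -/

/-- Laws of random heights. -/
abbrev Law := Measure (ℤ × ℤ → ℤ)

/-- `μ` has mass one. -/
abbrev Prob (μ : Law) : Prop := IsProbabilityMeasure μ

/-- The distance to the origin of the point `x.1 (1, 0) + x.2 (1/2, √3/2)` of the plane. -/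
noncomputable def len (x : ℤ × ℤ) : ℝ := √((x.1 : ℝ) ^ 2 + x.1 * x.2 + (x.2 : ℝ) ^ 2)

/-- The uniform distribution on a finite set. -/
noncomputable def unif (s : Set (ℤ × ℤ → ℤ)) : Law := uniformOn s

/-- Expectation. -/
noncomputable def mean (μ : Law) (F : (ℤ × ℤ → ℤ) → ℝ) : ℝ := ∫ h, F h ∂μ

/-- Neighbours in the triangular lattice. -/
def Adj (x y : ℤ × ℤ) : Prop := len (y - x) = 1

/-- The triangles of the lattice: `(v, false)` has the corners `v, v + (1, 0), v + (0, 1)`;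
`(v, true)` has the corners `v + (1, 0), v + (0, 1), v + (1, 1)`. -/
abbrev Tri := (ℤ × ℤ) × Bool

/-- A simple closed lattice polygon `p 0, p 1, …, p (n - 1), p 0`. -/
def IsPolygon {n : ℕ} (p : ZMod n → ℤ × ℤ) : Prop :=
  2 < n ∧ Function.Injective p ∧ ∀ i, Adj (p i) (p (i + 1))

/-- The edge between the lattice points `a` and `b` is an edge of the polygon `p`. -/
def IsEdge {n : ℕ} (p : ZMod n → ℤ × ℤ) (a b : ℤ × ℤ) : Prop :=
  ∃ i, (p i = a ∧ p (i + 1) = b) ∨ (p i = b ∧ p (i + 1) = a)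

/-- The edge `ab` is in `p` if and only if exactly one of its two sides `s`, `t` is in `S`. -/
def Side {n : ℕ} (p : ZMod n → ℤ × ℤ) (S : Finset Tri) (a b : ℤ × ℤ) (s t : Tri) : Prop :=
  IsEdge p a b ↔ ¬ (s ∈ S ↔ t ∈ S)

/-- The finite set `S` of triangles is the set of the triangles enclosed by the polygon `p`: the
edges of `p` are exactly the edges of the lattice with exactly one of their two sides in `S`. -/
def Encloses {n : ℕ} (p : ZMod n → ℤ × ℤ) (S : Finset Tri) : Prop :=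
  ∀ v : ℤ × ℤ, Side p S v (v + (1, 0)) (v, false) (v - (0, 1), true) ∧
    Side p S v (v + (0, 1)) (v, false) (v - (1, 0), true) ∧
    Side p S (v + (1, 0)) (v + (0, 1)) (v, false) (v, true)

/-- The corners of a triangle. -/
def corners (t : Tri) : Finset (ℤ × ℤ) :=
  if t.2 then {t.1 + (1, 0), t.1 + (0, 1), t.1 + (1, 1)}
  else {t.1, t.1 + (1, 0), t.1 + (0, 1)}

/-- The vertices of the domain: the corners of the enclosed triangles. -/
def verts (S : Finset Tri) : Finset (ℤ × ℤ) := S.biUnion corners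

/-- The heights of the domain enclosed by `p`, with the boundary value `1` at the first `k`
vertices `p 0, …, p (k - 1)` of the polygon and `-1` at the other ones: odd, with steps `0` or
`±2` between adjacent vertices (and the dummy value `0` off the domain). -/
def Heights {n : ℕ} (p : ZMod n → ℤ × ℤ) (k : ℕ) (S : Finset Tri) : Set (ℤ × ℤ → ℤ) :=
  {h | (∀ v ∈ verts S, Odd (h v)) ∧ (∀ i, h (p i) = if i.val < k then 1 else -1) ∧
    (∀ v ∈ verts S, ∀ w ∈ verts S, Adj v w → |h v - h w| ≤ 2) ∧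
    ∀ v, v ∉ verts S → h v = 0}

/-- The law of the uniform heights. -/
noncomputable def law {n : ℕ} (p : ZMod n → ℤ × ℤ) (k : ℕ) (S : Finset Tri) : Law :=
  unif (Heights p k S)

/-! ### The scaled lattice -/

/-- The hat function of the origin (affine on the triangles), in lattice coordinates. -/
noncomputable def hat (s t : ℝ) : ℝ := max 0 (1 - max |s| (max |t| |s + t|))

/-- The extension of `h` to the plane, affine on each triangle of the lattice, at the point `z`. -/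
noncomputable def interp (h : ℤ × ℤ → ℤ) (z : ℝ × ℝ) : ℝ :=
  ∑ᶠ v : ℤ × ℤ, (h v : ℝ) * hat (z.1 - z.2 / √3 - v.1) (2 * z.2 / √3 - v.2)

/-- The point of the plane. -/
noncomputable def pt (v : ℤ × ℤ) : ℝ × ℝ := (v.1 + v.2 / 2, √3 / 2 * v.2)

/-- The closed domain `D_δ`: the union of the enclosed triangles of the lattice of mesh `δ`. -/
noncomputable def region (δ : ℝ) (S : Finset Tri) : Set (ℝ × ℝ) :=
  {z | ∃ t ∈ S, z ∈ convexHull ℝ ((fun v => δ • pt v) '' (corners t : Set (ℤ × ℤ)))}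

open Classical in
/-- `h_δ(φ) = ∫ h_δ(z) φ(z) dz`, where `h_δ` is affine on each triangle of `D_δ` and is extended by
`0` outside `D_δ`. -/
noncomputable def fld (S : Finset Tri) (δ : ℝ) (φ : ℝ × ℝ → ℝ) (h : ℤ × ℤ → ℤ) : ℝ :=
  ∫ z : ℝ × ℝ, (if z ∈ region δ S then interp h (z.1 / δ, z.2 / δ) else 0) * φ z

/-! ### Marked Jordan domains and their approximation -/

/-- The point with the angle `t` of the unit circle. -/
noncomputable def circ (t : ℝ) : ℝ × ℝ := (Real.cos t, Real.sin t)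

/-- The Jordan domain `D`: the image of the open unit disc under the homeomorphism `Φ` of the plane
(by the theorem of Schoenflies these are exactly the interiors of Jordan curves). It is marked at
`a = Φ (1, 0)` and `b = Φ (-1, 0)`. By composition of `Φ` with a homeomorphism of the disc every
pair of boundary points and every choice of the two arcs is obtained. -/
def dom (Φ : (ℝ × ℝ) ≃ₜ (ℝ × ℝ)) : Set (ℝ × ℝ) := Φ '' {z | z.1 ^ 2 + z.2 ^ 2 < 1}

/-- The open boundary arc `A_+` from `a` to `b`. -/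
def arcPlus (Φ : (ℝ × ℝ) ≃ₜ (ℝ × ℝ)) : Set (ℝ × ℝ) :=
  (fun t => Φ (circ t)) '' Ioo 0 Real.pi

/-- The open boundary arc `A_-` from `b` to `a`. -/
def arcMinus (Φ : (ℝ × ℝ) ≃ₜ (ℝ × ℝ)) : Set (ℝ × ℝ) :=
  (fun t => Φ (circ t)) '' Ioo Real.pi (2 * Real.pi)

/-- Lattice polygons `p n` of mesh `δ n → 0`, with the boundary vertices divided into
`p 0, …, p (k - 1)` and `p k, …, p (N - 1)`, approximating the marked domain `(D; a, b)`: the
marked boundary curves converge uniformly modulo reparametrization (the marks of the polygon are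
on its edges `p (N - 1) p 0` and `p (k - 1) p k`). -/
def Approx (Φ : (ℝ × ℝ) ≃ₜ (ℝ × ℝ)) (δ : ℕ → ℝ) (N k : ℕ → ℕ)
    (p : ∀ n, ZMod (N n) → ℤ × ℤ) (S : ℕ → Finset Tri) : Prop :=
  (∀ n, 0 < δ n ∧ 0 < k n ∧ k n < N n ∧ IsPolygon (p n) ∧ Encloses (p n) (S n)) ∧
  Tendsto δ atTop (𝓝 0) ∧
  ∀ ε > 0, ∀ᶠ n in atTop, ∃ s : ℕ → ℝ, Monotone s ∧ s 0 = 0 ∧ s (k n) = Real.pi ∧
    s (N n) = 2 * Real.pi ∧ ∀ i < N n, ∀ t ∈ Icc (s i) (s (i + 1)),
      dist (δ n • pt (p n i)) (Φ (circ t)) < ε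

/-! ### The limit field -/

/-- Smooth functions with compact support contained in `D`. -/
def TestOn (D : Set (ℝ × ℝ)) (φ : ℝ × ℝ → ℝ) : Prop :=
  ContDiff ℝ ((⊤ : ℕ∞) : WithTop ℕ∞) φ ∧ HasCompactSupport φ ∧ tsupport φ ⊆ D

/-- `∫ |∇ψ|²`. -/
noncomputable def energy (ψ : ℝ × ℝ → ℝ) : ℝ :=
  ∫ z, (fderiv ℝ ψ z (1, 0) ^ 2 + fderiv ℝ ψ z (0, 1) ^ 2)

/-- `⟨φ, (-Δ_D)⁻¹ φ⟩ = sup_ψ (2 ∫ φ ψ - ∫ |∇ψ|²)`, `ψ` smooth with compact support in `D`. -/
noncomputable def V (D : Set (ℝ × ℝ)) (φ : ℝ × ℝ → ℝ) : ℝ :=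
  ⨆ ψ : {ψ // TestOn D ψ}, (2 * ∫ z, φ z * ψ.1 z) - energy ψ.1

/-- The Laplacian. -/
noncomputable def lap (u : ℝ × ℝ → ℝ) (z : ℝ × ℝ) : ℝ :=
  fderiv ℝ (fun w => fderiv ℝ u w (1, 0)) z (1, 0) +
    fderiv ℝ (fun w => fderiv ℝ u w (0, 1)) z (0, 1)

/-- `u` is the bounded harmonic function on `D` with the boundary values `1` on `A_+` and `-1` on
`A_-`. -/
def IsHarm (Φ : (ℝ × ℝ) ≃ₜ (ℝ × ℝ)) (u : ℝ × ℝ → ℝ) : Prop :=
  ContDiffOn ℝ 2 u (dom Φ) ∧ (∀ z ∈ dom Φ, lap u z = 0) ∧ (∀ z ∈ dom Φ, |u z| ≤ 1) ∧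
    (∀ x ∈ arcPlus Φ, Tendsto u (𝓝[dom Φ] x) (𝓝 1)) ∧
    ∀ x ∈ arcMinus Φ, Tendsto u (𝓝[dom Φ] x) (𝓝 (-1))

/-- Convergence in law of the random variables `X i` (under `μ i`) to the Gaussian law with mean
`m` and variance `v`. -/
def ToGauss {ι : Type} (l : Filter ι) (μ : ι → Law) (_ : ∀ i, Prob (μ i))
    (X : ι → (ℤ × ℤ → ℤ) → ℝ) (m v : ℝ) : Prop :=
  0 ≤ v ∧ TendstoInDistribution X l id μ (gaussianReal m v.toNNReal)

/-- The field theorem: for every marked Jordan domain and every approximation of it,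
`h_δ` converges in law to `u + √κ Φ_D` (the random variables `h_δ(φ)` converge in law for every
test function `φ`, hence, by linearity, so do the vectors of finitely many of them), and the
expectations converge. -/
def FieldLimit (κ : ℝ) : Prop :=
  ∀ Φ : (ℝ × ℝ) ≃ₜ (ℝ × ℝ), ∃ u, IsHarm Φ u ∧
    (∀ u', IsHarm Φ u' → ∀ z ∈ dom Φ, u' z = u z) ∧
    ∀ (δ : ℕ → ℝ) (N k : ℕ → ℕ) (p : ∀ n, ZMod (N n) → ℤ × ℤ) (S : ℕ → Finset Tri),
      Approx Φ δ N k p S → ∃ hL : ∀ n, Prob (law (p n) (k n) (S n)),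
        ∀ φ, TestOn (dom Φ) φ →
          Tendsto (fun n => mean (law (p n) (k n) (S n)) (fld (S n) (δ n) φ)) atTop
            (𝓝 (∫ z, u z * φ z)) ∧
          ToGauss atTop (fun n => law (p n) (k n) (S n)) hL (fun n => fld (S n) (δ n) φ)
            (∫ z, u z * φ z) (κ * V (dom Φ) φ)

/-! ### The interface -/

/-- The point of the complex plane. -/
def toC (z : ℝ × ℝ) : ℂ := ⟨z.1, z.2⟩

/-- The midpoint of the edge `v w` of the lattice of mesh `δ`. -/
noncomputable def mid (δ : ℝ) (v w : ℤ × ℤ) : ℂ := toC ((δ / 2) • (pt v + pt w))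

/-- `γ` is the interface of `h`: a simple curve in the zero set of `h_δ` in the closed domain, from
the midpoint of the edge `p (n - 1) p 0` to the midpoint of the edge `p (k - 1) p k` (the two
boundary edges which join the boundary values `1` and `-1`). -/
def IsInterface {n : ℕ} (p : ZMod n → ℤ × ℤ) (k : ℕ) (S : Finset Tri) (δ : ℝ) (h : ℤ × ℤ → ℤ)
    (γ : C(unitInterval, ℂ)) : Prop :=
  Function.Injective γ ∧ γ 0 = mid δ (p (-1)) (p 0) ∧ γ 1 = mid δ (p ((k : ZMod n) - 1)) (p k) ∧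
    ∀ t, ((γ t).re, (γ t).im) ∈ region δ S ∧ interp h ((γ t).re / δ, (γ t).im / δ) = 0

/-- `g` solves on `[0,t]` the Loewner equation `g' = 2 / (g - W)`, `g 0 = z`, inside the open
upper half-plane. -/
def IsLoewnerSol (W : ℝ → ℝ) (z : ℂ) (t : ℝ) (g : ℝ → ℂ) : Prop :=
  g 0 = z ∧ ∀ s ∈ Icc 0 t, 0 < (g s).im ∧
    HasDerivWithinAt g (2 / (g s - (W s : ℂ))) (Icc 0 t) s

/-- The domain of `g_t`: the points of the open upper half-plane whose Loewner solution exists on
all of `[0,t]`. -/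
def loewnerDomain (W : ℝ → ℝ) (t : ℝ) : Set ℂ := {z | ∃ g, IsLoewnerSol W z t g}

/-- `γ` is a simple curve in the closed upper half-plane, touching the real line only at time `0`,
which generates the Loewner chain driven by `W`: for every `t` the domain of `g_t` is the upper
half-plane minus `γ (0,t]`. -/
structure IsSimpleTrace (W : ℝ → ℝ) (γ : ℝ → ℂ) : Prop where
  cont : ContinuousOn γ (Ici 0)
  inj : InjOn γ (Ici 0)
  start : γ 0 = (W 0 : ℂ)
  im_pos : ∀ t : ℝ, 0 < t → 0 < (γ t).im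
  domain_eq : ∀ t : ℝ, 0 ≤ t → loewnerDomain W t = {z : ℂ | 0 < z.im} \ γ '' Ioc 0 t

/-- `γ` is the trace of chordal SLE with parameter `κ` (in the simple phase `κ ≤ 4`) on the
probability space `(Ω, P)`: its driving function is `√κ` times a standard Brownian motion. -/
def IsSLETrace {Ω : Type*} [MeasurableSpace Ω] (κ : ℝ) (P : Measure Ω) (γ : Ω → ℝ → ℂ) : Prop :=
  ∃ B : NNReal → Ω → ℝ, IsBrownianReal B P ∧
    ∀ᵐ ω ∂P, IsSimpleTrace (fun t => √κ * B t.toNNReal ω) (γ ω)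

/-- `ψ` is a conformal map from the upper half-plane onto `D`, extended continuously to the
boundary, which takes `0` to `a` and `∞` to `b`. -/
def IsUniformizer (Φ : (ℝ × ℝ) ≃ₜ (ℝ × ℝ)) (ψ : ℂ → ℂ) : Prop :=
  DifferentiableOn ℂ ψ {z | 0 < z.im} ∧ InjOn ψ {z | 0 < z.im} ∧
    ψ '' {z | 0 < z.im} = toC '' dom Φ ∧ ContinuousOn ψ {z | 0 ≤ z.im} ∧
    ψ 0 = toC (Φ (circ 0)) ∧
    Tendsto ψ (Bornology.cobounded ℂ ⊓ 𝓟 {z | 0 ≤ z.im}) (𝓝 (toC (Φ (circ Real.pi))))

/-- The curve theorem: there is a chordal `SLE_4` trace `γ` in the upper half-plane, from `0` to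
`∞`, such that for every marked Jordan domain `(D; a, b)`, every conformal map `ψ` from the upper
half-plane onto `(D; a, b)` and every approximation of `(D; a, b)` the interfaces converge in law
to the chordal `SLE_4` curve `ψ ∘ γ` of `(D; a, b)`, in the uniform metric modulo increasing
reparametrization: the expectations of all bounded continuous functions `F` of the curve which are
invariant under increasing reparametrization converge. -/
def CurveLimit : Prop :=
  ∃ (Ω : Type) (_ : MeasurableSpace Ω) (P : Measure Ω) (_ : IsProbabilityMeasure P)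
    (γ : Ω → ℝ → ℂ), IsSLETrace 4 P γ ∧
    ∀ Φ : (ℝ × ℝ) ≃ₜ (ℝ × ℝ), (∃ ψ, IsUniformizer Φ ψ) ∧ ∀ ψ, IsUniformizer Φ ψ →
      ∃ G : Ω → C(unitInterval, ℂ),
        (∀ᵐ ω ∂P, G ω 1 = toC (Φ (circ Real.pi)) ∧
          ∀ t : unitInterval, (t : ℝ) < 1 → G ω t = ψ (γ ω (t / (1 - t)))) ∧
        (∀ F : C(unitInterval, ℂ) → ℝ, Continuous F → AEMeasurable (fun ω => F (G ω)) P) ∧
        ∀ (δ : ℕ → ℝ) (N k : ℕ → ℕ) (p : ∀ n, ZMod (N n) → ℤ × ℤ) (S : ℕ → Finset Tri),
          Approx Φ δ N k p S →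
          (∀ n, ∀ h ∈ Heights (p n) (k n) (S n), ∃ c,
            IsInterface (p n) (k n) (S n) (δ n) h c) ∧
          ∀ c : ∀ n, (ℤ × ℤ → ℤ) → C(unitInterval, ℂ),
            (∀ n, ∀ h ∈ Heights (p n) (k n) (S n),
              IsInterface (p n) (k n) (S n) (δ n) h (c n h)) →
            ∀ F : C(unitInterval, ℂ) → ℝ, Continuous F → (∃ M, ∀ x, |F x| ≤ M) →
              (∀ (x : C(unitInterval, ℂ)) (σ : C(unitInterval, unitInterval)), StrictMono σ →
                Function.Surjective σ → F (x.comp σ) = F x) →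
              Tendsto (fun n => mean (law (p n) (k n) (S n)) fun h => F (c n h)) atTop
                (𝓝 (∫ ω, F (G ω) ∂P))

end Vale.Agent.P153.R2.FinB
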