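import Vale.Agent.P153.R2.Final.Pos
import Vale.Agent.P153.R2.FinB.Conv

/-!
P153, two-arc boundary values: the field theorem.
-/

set_option autoImplicit false

namespace Vale.Agent.P153.R2.FinB

/-- **The field theorem.** -/
theorem field_lim : ∃ κ : ℝ, 0 < κ ∧ FieldLimit κ := by
  obtain ⟨κ, hκ, h⟩ := Final.field_lim
  exact ⟨κ, hκ, fieldLimit_of h⟩

end Vale.Agent.P153.R2.FinB
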